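import Vale.Agent.P297.H10.V3.Main
import Vale.Agent.P297.H600.V3.Z42

/-!
Bloch's conjecture, integrally, for numerical Campedelli surfaces with fundamental groups `ℤ/8`,
`Q₈` and `ℤ/4 × ℤ/2`, and for all surfaces that they dominate.
-/

open MvPolynomial Vale.Agent.P297.C8V

namespace Vale.Agent.Results.P297.CampedelliEight

theorem result :
    ∀ (E : Type) [Field E] [Algebra ℂ E] (F : Fin 4 → MvPolynomial (Fin 7) ℂ) (t : Fin 7 → E),
      Iso F → IsFF F t →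
      (∀ ζ : ℂ, ζ ^ 2 = Complex.I →
        Semi (fun j => ζ ^ (j : ℕ)) id (fun k => ζ ^ (2 * (k : ℕ))) F →
        Free ![1, -1, 1, -1, 1, -1, 1] F →
        coeff (Finsupp.single 3 1 + Finsupp.single 5 1) (F 0) ≠ 0 →
        coeff (Finsupp.single 3 1 + Finsupp.single 1 1) (F 2) ≠ 0 →
        ∃ G : E ≃ₐ[ℂ] E, Acts t (fun j => ζ ^ (j : ℕ)) id G ∧
          BlochSub (Subgroup.zpowers G)) ∧
      (Semi ![Complex.I, -Complex.I, Complex.I, -Complex.I, 1, -1, -1] id ![1, 1, -1, -1] F →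
        Semi ![1, -1, 1, -1, -1, 1, -1] ![1, 0, 3, 2, 4, 5, 6] ![1, -1, 1, -1] F →
        Free ![-1, -1, -1, -1, 1, 1, 1] F →
        ∃ G₁ G₂ : E ≃ₐ[ℂ] E,
          Acts t ![Complex.I, -Complex.I, Complex.I, -Complex.I, 1, -1, -1] id G₁ ∧
          Acts t ![1, -1, 1, -1, -1, 1, -1] ![1, 0, 3, 2, 4, 5, 6] G₂ ∧
          BlochSub (Subgroup.closure {G₁, G₂})) ∧
      (Semi ![Complex.I, -Complex.I, Complex.I, -Complex.I, 1, -1, -1] id ![1, 1, -1, -1] F →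
        Semi ![1, 1, -1, -1, -1, -1, 1] id ![1, 1, 1, 1] F →
        Free ![-1, -1, -1, -1, 1, 1, 1] F → Free ![1, 1, -1, -1, -1, -1, 1] F →
        Free ![-1, -1, 1, 1, -1, -1, 1] F →
        ∃ G₁ G₂ : E ≃ₐ[ℂ] E,
          Acts t ![Complex.I, -Complex.I, Complex.I, -Complex.I, 1, -1, -1] id G₁ ∧
          Acts t ![1, 1, -1, -1, -1, -1, 1] id G₂ ∧
          BlochSub (Subgroup.closure {G₁, G₂})) := by
  intro E _ _ F t hi ht
  exact ⟨fun ζ hζ h hf h0 h2 => bloch_Z8 hζ h hf hi ht h0 h2,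
    fun h1 h2 hf => bloch_Q8 h1 h2 hf hi ht,
    fun h1 h2 hf1 hf2 hf3 => bloch_Z42 h1 h2 hf1 hf2 hf3 hi ht⟩

end Vale.Agent.Results.P297.CampedelliEight
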