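import Vale.Agent.P297.H424.Z2.Final
import Vale.Agent.P297.H424.Z3.Three
import Vale.Agent.P297.H925.Gen8
import Vale.Agent.P297.H600.AllG.Four
import Vale.Agent.P297.H2.Ex.Two
import Vale.Agent.P297.H2.Ex.Three
import Vale.Agent.P297.H2.Ex.Four

/-!
Bloch's conjecture, integrally, for the general numerical Godeaux surfaces with torsion `ℤ/2`,
`ℤ/3` and `ℤ/4` (eight moduli each).
-/

open IntermediateField Vale.Agent.P297 Vale.Agent.P297.H839 Vale.Agent.P297.H72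

namespace Vale.Agent.Results.P297.GodeauxAllTorsion

/-- the equations of the surfaces with `ℤ/2`-torsion -/
def eq2 {K : Type} [Field K] (p : Fin 9 → K) (x k y s t : K) : Prop :=
  x * (k ^ 2 * t - s) + (y + p 5) ^ 2 * t - (y + p 6) ^ 2 * s =
      (2 * y + p 3) * (y + p 5) + (2 * y + p 4) * k * (y + p 6) ∧
    x * (s - k * t + (1 + p 0 / (y + p 5) + p 2 / (y + p 6)) * k - p 2 / (y + p 6) * k ^ 2 -
        p 0 / (y + p 5)) =
      p 8 - y ^ 2 + p 1 * y + p 2 / (y + p 6) * (y + p 5) ^ 2 +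
        p 0 / (y + p 5) * (y + p 6) ^ 2 ∧
    x * ((s + 2 * (p 0 / (y + p 5)) * k) * (t - 2 * (p 2 / (y + p 6))) +
        (p 0 / (y + p 5) + p 2 / (y + p 6) * k) ^ 2) =
      p 7 - y ^ 2 + p 0 / (y + p 5) * (2 * y + p 4) * (y + p 6) +
        p 2 / (y + p 6) * (2 * y + p 3) * (y + p 5) -
        (p 0 / (y + p 5) * (y + p 6) + p 2 / (y + p 6) * (y + p 5)) ^ 2

/-- the equations of the surfaces with `ℤ/3`-torsion -/
def eq3 {K : Type} [Field K] (z t : Fin 4 → K) (s u v w : K) : Prop :=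
  (1 + w) * (w * (3 * v ^ 2 - z 2 * v - z 0) + (3 * u ^ 2 - z 3 * u - z 1)) =
      3 * w * (s ^ 2 + u ^ 2 + v ^ 2 + s * u + s * v - u * v + 3 * s) ∧
    (1 + w) * (w * (v ^ 3 - t 2 * v - t 0) + (u ^ 3 - t 3 * u - t 1)) =
      w * (u + v - s) * (s ^ 2 + u ^ 2 + v ^ 2 + s * u + s * v - u * v + 3 * s)

/-- the equations of the surfaces with `ℤ/4`-torsion -/
def eq4 {K : Type} [Field K] (m : Fin 11 → K) (u w p q : K) : Prop :=
  p * q + (m 0 * u / w + m 1 / u + m 2 * u * w + m 3 * u + m 4) = 0 ∧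
    w * p ^ 2 + q ^ 2 + m 9 * w * p + m 10 * q +
      (m 5 + m 6 * w + (m 7 + m 8 * w) * u) = 0

theorem result :
    (∃ F : MvPolynomial (Fin 9) ℂ, F ≠ 0 ∧ ∀ p : Fin 9 → ℂ, MvPolynomial.eval p F ≠ 0 →
      (∃ (K : Type) (_ : Field K) (_ : Algebra ℂ K) (x k y s t : K),
        AlgebraicIndependent ℂ ![y, k] ∧ IntermediateField.adjoin ℂ {x, k, y, s, t} = ⊤ ∧
        eq2 (fun i => algebraMap ℂ K (p i)) x k y s t) ∧
      ∀ (K : Type) [Field K] [Algebra ℂ K] (x k y s t : K), AlgebraicIndependent ℂ ![y, k] →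
        IntermediateField.adjoin ℂ {x, k, y, s, t} = ⊤ →
        eq2 (fun i => algebraMap ℂ K (p i)) x k y s t →
        ∀ (L : Type) [Field L] [Algebra ℂ L], (L →ₐ[ℂ] K) → PointsEquivalent L) ∧
    (∃ P : MvPolynomial (Fin 8) ℂ, P ≠ 0 ∧ ∀ z t : Fin 4 → ℂ,
      MvPolynomial.eval (Fin.append z t) P ≠ 0 →
      (∃ (K : Type) (_ : Field K) (_ : Algebra ℂ K) (s u v w : K), Algebra.trdeg ℂ K = 2 ∧
        IntermediateField.adjoin ℂ {s, u, v, w} = ⊤ ∧ w ≠ -1 ∧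
        eq3 (fun i => algebraMap ℂ K (z i)) (fun i => algebraMap ℂ K (t i)) s u v w) ∧
      ∀ (K : Type) [Field K] [Algebra ℂ K] (s u v w : K), Algebra.trdeg ℂ K = 2 →
        IntermediateField.adjoin ℂ {s, u, v, w} = ⊤ → w ≠ -1 →
        eq3 (fun i => algebraMap ℂ K (z i)) (fun i => algebraMap ℂ K (t i)) s u v w →
        ∀ (L : Type) [Field L] [Algebra ℂ L], (L →ₐ[ℂ] K) → PointsEquivalent L) ∧
    (∃ R : MvPolynomial (Fin 11) ℂ, R ≠ 0 ∧ ∀ m : Fin 11 → ℂ, MvPolynomial.eval m R ≠ 0 →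
      (∃ (K : Type) (_ : Field K) (_ : Algebra ℂ K) (u w p q : K),
        AlgebraicIndependent ℂ ![u, w] ∧ IntermediateField.adjoin ℂ {u, w, p, q} = ⊤ ∧
        eq4 (fun i => algebraMap ℂ K (m i)) u w p q) ∧
      ∀ (K : Type) [Field K] [Algebra ℂ K] (u w p q : K), AlgebraicIndependent ℂ ![u, w] →
        IntermediateField.adjoin ℂ {u, w, p, q} = ⊤ →
        eq4 (fun i => algebraMap ℂ K (m i)) u w p q →
        ∀ (L : Type) [Field L] [Algebra ℂ L], (L →ₐ[ℂ] K) → PointsEquivalent L) := by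
  refine ⟨?_, ?_, ?_⟩
  · obtain ⟨F, hF, h⟩ := Z2.NV.big_nonDeg
    refine ⟨F, hF, fun p hp => ⟨H2.Ex.two p (h p hp).P0, ?_⟩⟩
    intro K _ _ x k y s t hyk htop hE L _ _ ι
    exact Z2.godeaux_two (h p hp) hyk htop hE ι
  · obtain ⟨P, hP, h⟩ := H925.exists_poly
    refine ⟨P, hP, fun z t hz => ⟨H2.Ex.three z t, ?_⟩⟩
    intro K _ _ s u v w htr htop hw hE L _ _ ι
    obtain ⟨h1, h2⟩ := h z t hz
    obtain ⟨hA, hB⟩ := hE
    refine H424.godeaux_three'' h1 h2 s u v w htr htop hw ?_ ?_ ι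
    · change (1 + w) * (w * (3 * v ^ 2 - algebraMap ℂ K (z 2) * v - algebraMap ℂ K (z 0)) +
        (3 * u ^ 2 - algebraMap ℂ K (z 3) * u - algebraMap ℂ K (z 1))) -
        3 * w * (s ^ 2 + u ^ 2 + v ^ 2 + s * u + s * v - u * v + 3 * s) = 0
      rw [hA, sub_self]
    · change (1 + w) * (w * (v ^ 3 - algebraMap ℂ K (t 2) * v - algebraMap ℂ K (t 0)) +
        (u ^ 3 - algebraMap ℂ K (t 3) * u - algebraMap ℂ K (t 1))) +
        w * (s - u - v) * (s ^ 2 + u ^ 2 + v ^ 2 + s * u + s * v - u * v + 3 * s) = 0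
      rw [hB]
      ring
  · obtain ⟨R, hR, h⟩ := H600.AllG.four
    refine ⟨R * MvPolynomial.X 2, mul_ne_zero hR (MvPolynomial.X_ne_zero 2), ?_⟩
    intro m hm
    rw [map_mul, MvPolynomial.eval_X] at hm
    refine ⟨H2.Ex.four m (right_ne_zero_of_mul hm), ?_⟩
    intro K _ _ u w p q hind htop hE L _ _ ι
    exact h m (left_ne_zero_of_mul hm) K u w p q hind htop hE L ι

end Vale.Agent.Results.P297.GodeauxAllTorsion
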