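import Vale.Agent.P297.H212.Four.Final

/-!
Bloch's conjecture, integrally, for the numerical Godeaux surfaces with torsion `ℤ/4`.
-/

open IntermediateField Vale.Agent.P297 Vale.Agent.P297.H839 Vale.Agent.P297.G4
  Vale.Agent.P297.H160

namespace Vale.Agent.Results.P297.GodeauxFour

theorem result :
    ∀ m : Fin 11 → ℂ, m 0 ≠ 0 → m 1 ≠ 0 → m 2 ≠ 0 → (m 7 ≠ 0 ∨ m 8 ≠ 0) →
      (m 9 ≠ 0 ∨ m 10 ≠ 0 ∨ ¬ Special m) →
      (∃ l : ℂ, ∀ r₀ r₁ r₂ : ℂ, ∃ x : ℂ,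
        qv (fc m l) x ≠ (r₀ + r₁ * x + r₂ * x ^ 2) ^ 2) →
      ∀ (K : Type) [Field K] [Algebra ℂ K] (u w p q : K),
        OnSurf (fun i => algebraMap ℂ K (m i)) u w p q →
        AlgebraicIndependent ℂ ![u, w] →
        IntermediateField.adjoin ℂ {u, w, p, q} = ⊤ →
        PointsEquivalent K := by
  intro m m0 m1 m2 h78 hsp hsq K _ _ u w p q hs hind htop S hS f hf hK x y
  exact H212.Four.four_final m0 m1 m2 h78 hsp hsq hs hind htop f hK x y

end Vale.Agent.Results.P297.GodeauxFour
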