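import Vale.Agent.P297.H424.Fam.Main
import Vale.Agent.P297.H424.Fam.Exist
import Vale.Agent.P297.H600.KSide
import Vale.Agent.P297.H212.Asm

open IntermediateField Vale.Agent.P297 Vale.Agent.P297.H839 Vale.Agent.P297.H600
  Vale.Agent.P297.H424

namespace Vale.Agent.Results.P297.GodeauxInvolution

theorem result :
    (∀ (c : ℂ), c ^ 3 - c ^ 2 + 1 = 0 →
      (∃ (K : Type) (_ : Field K) (_ : Algebra ℂ K) (x y z : K),
        AlgebraicIndependent ℂ ![x, y] ∧ IntermediateField.adjoin ℂ {x, y, z} = ⊤ ∧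
        cgForm (algebraMap ℂ K c) x y z 1 = 0) ∧
      ∀ (K : Type) [Field K] [Algebra ℂ K] (x y z : K),
      AlgebraicIndependent ℂ ![x, y] → IntermediateField.adjoin ℂ {x, y, z} = ⊤ →
      cgForm (algebraMap ℂ K c) x y z 1 = 0 → PointsEquivalent K) ∧
    (∀ (D a b c d : ℂ), D * (D + 1) * (a * d - b * c) ≠ 0 → ¬(D = -2 ∧ a = c ∧ b = -d) →
      (∃ (K : Type) (_ : Field K) (_ : Algebra ℂ K) (u r s t X Y : K),
        X = algebraMap ℂ K a * u + algebraMap ℂ K b ∧
        Y = algebraMap ℂ K c * u + algebraMap ℂ K d ∧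
        AlgebraicIndependent ℂ ![u, r] ∧ IntermediateField.adjoin ℂ {u, r, s, t} = ⊤ ∧
        u * giS1 (algebraMap ℂ K D) X Y r s t + giS2 (algebraMap ℂ K D) X Y r s t = 0 ∧
        giS1 (algebraMap ℂ K D) X Y r s t +
          giT (algebraMap ℂ K D) (algebraMap ℂ K b) (algebraMap ℂ K d) X Y r s t = 0) ∧
      ∀ (K : Type) [Field K] [Algebra ℂ K] (u r s t X Y : K),
      X = algebraMap ℂ K a * u + algebraMap ℂ K b →
      Y = algebraMap ℂ K c * u + algebraMap ℂ K d →
      AlgebraicIndependent ℂ ![u, r] → IntermediateField.adjoin ℂ {u, r, s, t} = ⊤ →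
      u * giS1 (algebraMap ℂ K D) X Y r s t + giS2 (algebraMap ℂ K D) X Y r s t = 0 →
      giS1 (algebraMap ℂ K D) X Y r s t +
        giT (algebraMap ℂ K D) (algebraMap ℂ K b) (algebraMap ℂ K d) X Y r s t = 0 →
      PointsEquivalent K) := by
  refine ⟨?_, ?_⟩
  · intro c hc
    refine ⟨Fam.exists_cg c, ?_⟩
    intro K _ _ x y z hxy hK hF
    obtain ⟨m, r, θ, hmr, hθ, htop⟩ := quintic_side hc hxy hK hF
    exact H212.cg_points hc m r θ hmr hθ htop
  · intro D a b c d h hex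
    refine ⟨Fam.exists_fam h hex, ?_⟩
    intro K _ _ u r s t X Y hX hY hind hgen hQ hC
    subst hX hY
    exact Fam.points h hex hind hgen hQ hC

end Vale.Agent.Results.P297.GodeauxInvolution
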